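import Mathlib.Algebra.Lie.OfAssociative
import Mathlib.Algebra.Order.Archimedean.Real.Hom
import Mathlib.Algebra.QuadraticAlgebra.Basic
import Mathlib.Algebra.Ring.IsFormallyReal
import Mathlib.Analysis.InnerProductSpace.GramMatrix
import Mathlib.Data.Finite.Perm
import Mathlib.Data.Matrix.ColumnRowPartitioned
import Mathlib.Data.Nat.Prime.Factorial
import Mathlib.Data.Rat.Star
import Mathlib.LinearAlgebra.Matrix.FiniteDimensional
import Mathlib.NumberTheory.SumFourSquares
import Mathlib.Order.CompletePartialOrder
import Mathlib.RingTheory.Etale.Weakly
import Mathlib.RingTheory.Flat.TorsionFree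
import Mathlib.RingTheory.Henselian
import Mathlib.RingTheory.PicardGroup
import Mathlib.RingTheory.RegularLocalRing.Defs
import Mathlib.RingTheory.SimpleModule.IsAlgClosed
import Mathlib.RingTheory.SimpleRing.Principal
import Mathlib.RingTheory.TotallySplit
import Mathlib.RingTheory.TwoSidedIdeal.Instances
import Mathlib.Tactic

/-! The part of Mathlib that the development of this folder uses. -/
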